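import Crest.Agent.X262.R1.Lh
import Crest.Agent.X262.Mod79.Neg
import Crest.Agent.X277.Jet.Dvr

/-!
# Row 262, R1 (helper3): the discrepancy of a foliation by curves at a transverse divisor

* `mem_loc_of_prm` : Hartogs at the centre of a valuation;
* `KF H δ r a`     : `a` bounds `r` times the canonical class of the derivation `δ` on the model;
* `KF.prm_le`, `KF.exc_le` : the size of `a` at a divisor which is transverse to `δ`; one order is
  gained at exceptional divisors.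
-/

set_option autoImplicit false
set_option linter.unusedSectionVars false

noncomputable section

namespace Crest.Agent.X262.R1

open Crest.Agent.X277 Crest.Agent.X277.BD Crest.Agent.X277.Pst Crest.Agent.X277.Neg
  Crest.Agent.X262.Mod WithZero Polynomial

universe u

variable {E F : Type u} [Field E] [Field F] [Algebra E F] {H a : BD E F} {V : RZ E F}
  {δ : Derivation E F F} {r : ℕ} {π : F}

/-- `a` bounds `r` times the canonical class of `δ` at the primes of the model -/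
def KF (H : BD E F) (δ : Derivation E F F) (r : ℕ) (a : BD E F) : Prop :=
  ∀ W, Prm H W → ∃ ρ : F, ρ ≠ 0 ∧ (∀ x ∈ W.1, W.v (δ x) ≤ W.v ρ) ∧ a.val W = W.v ρ ^ r

theorem KF.prm_le (h : KF H δ r a) (hV : Prm H V) (hπ : π ∈ V.1) : V.v (δ π) ^ r ≤ a.val V := by
  obtain ⟨ρ, -, h1, h2⟩ := h V hV
  rw [h2]
  exact pow_le_pow_left' (h1 π hπ) r

variable [CharZero E] [Algebra.EssFiniteType E F]

theorem v_nat (V : RZ E F) (n : ℕ) (hn : n ≠ 0) : V.v n = 1 := by
  rw [← map_natCast (algebraMap E F)]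
  exact V.v_alg (Nat.cast_ne_zero.2 hn)

/-- Hartogs at the centre of `V` -/
theorem mem_loc_of_prm (hH : IsMod H) {f : F} (h : ∀ W, Prm H W → Gz H V W → f ∈ W.1) :
    f ∈ loc H V := by
  have key : ∀ T : Set (RZ E F), T.Finite → (∀ W ∈ T, Prm H W ∧ ¬ Gz H V W) →
      ∃ (m : ℕ) (g : F), g ∈ (m • H).Sec ∧ V.v g = (m • H).val V ∧
        ∀ W ∈ T, W.v (f * g) ≤ (m • H).val W := by
    intro T hT
    induction T, hT using Set.Finite.induction_on with
    | empty => exact fun _ => ⟨0, 1, by simpa using one_mem_Sec, by simp, by simp⟩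
    | @insert W T _ _ ih =>
      intro h1
      obtain ⟨m, g, h2, h3, h4⟩ := ih fun U hU => h1 U (Set.mem_insert_of_mem _ hU)
      obtain ⟨h5, h6⟩ := h1 W (Set.mem_insert _ _)
      simp only [Gz, not_forall] at h6
      obtain ⟨m', g', h7, h8, h9⟩ := h6
      have h10 : W.v g' < (m' • H).val W := (h7 W).lt_of_ne h9
      have h11 : 0 < W.v g' := RZ.pos (ne_of_val h8)
      obtain ⟨n, hn⟩ := Rgr.arch h5.dvs (W.v f) ((m' • H).val W / W.v g') ((one_lt_div₀ h11).2 h10)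
      have e : (m + n * m') • H = m • H + n • m' • H := by rw [add_nsmul, mul_nsmul']
      refine ⟨m + n * m', g * g' ^ n, e ▸ mul_mem_Sec h2 (pow_mem_Sec h7 n), ?_, ?_⟩
      · rw [e, map_mul, map_pow, val_add, h3, h8, val_nsmul n]
      rintro U (rfl | hU)
      · rw [div_pow, le_div_iff₀ (pow_pos h11 n)] at hn
        rw [e, val_add, val_nsmul n, mul_left_comm, map_mul, map_mul, map_pow]
        exact mul_le_mul' (h2 U) hn
      · rw [e, val_add, ← mul_assoc, map_mul]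
        exact mul_le_mul' (h4 U hU) (pow_mem_Sec h7 n U)
  obtain ⟨m, g, h1, h2, h3⟩ := key _ (fin_not_mem hH.free hH.bir f)
    fun W hW => ⟨hW.1, fun h4 => hW.2 (h W hW.1 h4)⟩
  refine ⟨m, g, h1, h2, ((car_self hH.free).nsmul m).mem_Sec hH fun W hW => ?_⟩
  by_cases h4 : f ∈ W.1
  · rw [map_mul]
    exact (mul_le_of_le_one_left' (RZ.le_one_iff.2 h4)).trans (h1 W)
  · exact h3 W ⟨hW, h4⟩

omit [CharZero E] [Algebra.EssFiniteType E F] in
theorem log_der {w : Valuation F ℤᵐ⁰} (hπ : w π = exp (-1))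
    (hδ : ∀ x, w x ≤ 1 → w (δ x) ≤ w (δ π)) (h0 : δ π ≠ 0) (x : F) (hx : x ≠ 0) :
    w (δ x / x + (log (w x) : ℤ) * (δ π / π)) < w (δ π / π) := by
  have hπ0 : π ≠ 0 := by
    rintro rfl
    simp at h0
  have hx0 : w x ≠ 0 := by simpa using hx
  set m := log (w x) with hm
  have h1 : w (x * π ^ m) = 1 := by
    rw [map_mul, map_zpow₀, hπ, ← exp_zsmul, ← exp_log hx0, ← exp_add, ← hm]
    simp
  have h2 : δ x / x + (m : F) * (δ π / π) = δ (x * π ^ m) / (x * π ^ m) := by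
    rw [Derivation.leibniz, Derivation.leibniz_zpow, zpow_sub_one₀ hπ0]
    have := zpow_ne_zero m hπ0
    simp only [smul_eq_mul, zsmul_eq_mul]
    field_simp
    ring
  rw [h2, map_div₀, h1, div_one, map_div₀, hπ]
  refine (hδ _ h1.le).trans_lt ?_
  rw [lt_div_iff₀ exp_pos]
  refine mul_lt_of_lt_one_right (zero_lt_iff.2 (by simpa using h0)) ?_
  rw [← exp_zero, exp_lt_exp]
  omega

/-- **one order is gained at a transverse exceptional divisor** -/
theorem KF.exc_le' (h : KF H δ r a) (hH : IsMod H) (ha : Car H a) (hr : 0 < r) (hV : Dvs V)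
    (hn : ¬ Prm H V) {w : Valuation F ℤᵐ⁰} (N : IsNv V w) (hπ : w π = exp (-1))
    (hδ : ∀ x ∈ V.1, V.v (δ x) ≤ V.v (δ π)) (h0 : δ π ≠ 0) : V.v (δ π / π) ^ r ≤ a.val V := by
  have : CharZero F := Slope.cz_up E F
  obtain ⟨u, hu, hu1⟩ := ha.exists_gen hH.free V
  by_contra hc
  rw [not_le, ← hu1 V Gz.rfl, ← map_pow, ← N.lt_iff, map_pow] at hc
  have hπ0 : π ≠ 0 := by
    rintro rfl
    simp at h0
  let A : ℕ → Set F := fun j => {x | ∀ W, Prm H W → Gz H V W → W.v x ^ r ≤ W.v u ^ j}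
  have hA : ∀ j, ∀ x ∈ A j, nab δ u r j x ∈ A (j + 1) := fun j x hx W h1 h2 => by
    obtain ⟨ρ, h3, h4, h5⟩ := h W h1
    have h6 : W.v u = W.v ρ ^ r := (hu1 W h2).trans h5
    have h7 := hx W h1 h2
    rw [h6, ← pow_mul, mul_comm, pow_mul] at h7 ⊢
    exact pow_le_pow_left' (nab_mem (v_nat W) hr h3 (fun y hy => h4 y (RZ.le_one_iff.1 hy)) h6
      ((pow_le_pow_iff_left₀ zero_le zero_le hr.ne').1 h7)) r
  have hR : ∀ j, ∀ x ∈ A j, x ^ r / u ^ j ∈ (loc H V : Set F) := fun j x hx =>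
    mem_loc_of_prm hH fun W h1 h2 => by
      rw [← RZ.le_one_iff, map_div₀, map_pow, map_pow, div_le_one₀ (pow_pos (RZ.pos hu) j)]
      exact hx W h1 h2
  have key := lhop (w := w) (fun n hn => N.eq_one.2 (v_nat V n hn)) hr (div_ne_zero h0 hπ0) hu
    (log_der hπ (fun x hx => (N.le_iff _ _).2 (hδ x (N.le_one.1 hx))) h0) hc hA hR
    fun x hx => N.le_one.2 (mem_of_loc hx)
  have h1 : ∀ x ∈ loc H V, x ∈ A 0 := fun x hx W _ h2 => by
    rw [pow_zero]
    exact pow_le_one₀ zero_le (RZ.le_one_iff.2 ((gz_iff hH.free).1 h2 x hx))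
  refine hn (prm_iff.2 ⟨hV.ne_top, (dvs_iff.1 hV).2.trans ?_⟩)
  refine add_le_add_left (rk_le_of_sub fun z _ => ?_) 1
  by_cases hz : V.v z = 1
  swap
  · exact mem_cl_of_ne hz
  obtain ⟨m, s, h2, h3, h4⟩ := hH.bir z
  obtain ⟨g, h5, h6⟩ := (hH.free.nsmul m).exists_gen V
  have hg := ne_of_val h6
  obtain ⟨p, hp, p', hp', h7, h8⟩ := key _ 0 _ _ (h1 _ (div_mem_loc h4 h5 h6))
    (h1 _ (div_mem_loc h2 h5 h6)) (div_ne_zero h3 hg)
    (by rw [map_div₀, map_div₀, map_mul, N.eq_one.2 hz, one_mul]) (Int.self_le_toNat _)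
  rw [div_div_div_cancel_right₀ hg, mul_div_cancel_right₀ _ h3, N.lt_one] at h8
  have h9 : p / p' ∈ clS V (loc H V) := div_mem_clS (mem_clS_of_mem (mem_of_loc hp) hp)
    (mem_clS_of_mem (mem_of_loc hp') hp') (N.eq_one.1 h7)
  refine mem_cl_of_poly (p := X ^ r - C (p / p')) (fun i => ?_) ⟨r, ?_⟩ (by simpa using h8)
  · rw [coeff_sub, coeff_X_pow, coeff_C]
    refine sub_mem ?_ ?_ <;> split_ifs
    exacts [one_mem _, zero_mem _, h9, zero_mem _]
  · rw [coeff_sub, coeff_X_pow, coeff_C, if_pos rfl, if_neg hr.ne', sub_zero, map_one]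

theorem KF.exc_le (h : KF H δ r a) (hH : IsMod H) (ha : Car H a) (hr : 0 < r) (hV : Dvs V)
    (hn : ¬ Prm H V) (hπ : nv V π = exp (-1)) (hδ : ∀ x ∈ V.1, V.v (δ x) ≤ V.v (δ π))
    (h0 : δ π ≠ 0) : V.v (δ π / π) ^ r ≤ a.val V :=
  h.exc_le' hH ha hr hV hn (isNv_nv hV) hπ hδ h0

end Crest.Agent.X262.R1
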