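import Crest.Agent.X262.R1.Tr
import Crest.Agent.X262.Vol77.Defs

/-!
# Row 262, R1 (helper3): the classes of a fibration in curves (`Vol77.BetaStmt`)
-/

set_option autoImplicit false

noncomputable section

namespace Crest.Agent.X262.R1

open Crest.Agent.X277 Crest.Agent.X277.BD Crest.Agent.X277.Pst Crest.Agent.X277.Jet
  Crest.Agent.X262.Mod Crest.Agent.X262.Wr72 Crest.Agent.X262.Vol77 Module

theorem beta : BetaStmt := by
  intro k M K _ _ _ _ _ _ _ _ _ H r hI _ Z n Y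
  have := Slope.cz_up k M
  have := Slope.eft_up k M K
  obtain ⟨X, hX⟩ := exists_tower Z Y
  obtain ⟨h, h0, h1⟩ := hI.can' X.basis
  obtain ⟨ψ, φ, h2, h3, h4⟩ := exists_psi_phi hI.mod hX h0 hI.pos fun P hP g hg =>
    (h1 P hP.dvs g hg).2 hP
  obtain ⟨d, hd⟩ := hI.deg ψ
  have hr : (0 : ℚ) < r := Nat.cast_pos.2 hI.pos
  have h5 : Deg H φ (-d - 1 / r) := by
    have h5 : Deg H (φ + ψ) (-1 / r) := Deg.of_nsmul hI.pos (by
      rw [mul_div_cancel₀ _ hr.ne', ← zero_sub]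
      exact ((deg_pr h).sub deg_self).congr h4)
    have h6 := h5.sub hd
    rw [add_sub_cancel_right] at h6
    convert h6 using 1
    ring
  refine ⟨ψ, φ, -d, h2, h3, by rwa [neg_neg], h5, ?_⟩
  obtain ⟨m, c, f, hm, -, hc, h6⟩ := h5
  obtain ⟨N, b, h', h7, h8⟩ := hI.can
  have h9 := r1 (E := k) (δ := Z.D 0) (r' := r) (c := c) (c' := -1) (f := f) (f' := h') (b := b)
    (Z.card_eq.symm.trans (Fintype.card_fin 1))
    (fun h => zero_ne_one ((DFunLike.congr_fun h (Z.y 0)).symm.trans (by simpa using Z.dual 0 0)))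
    hI.mod ⟨_, Y.ai.transcendental 0⟩ hI.rho hm (fun W hW => ⟨φ.gen W, φ.gen_ne W,
      fun x hx => (h3 W hW x hx).trans_eq (φ.v_gen W).symm, by
        rw [← h6 W hW, val_nsmul, φ.v_gen]⟩) fun V hV => by
      obtain ⟨g, hg⟩ := exists_kv' b hV
      obtain ⟨z, hz, rfl⟩ := hg.1
      refine ⟨z, fun i => RZ.le_one_iff.1 (hz i), ?_⟩
      rw [neg_smul, one_smul, neg_add_eq_sub, val_sub, val_pr h7, div_le_iff₀ (H.val_pos V),
        ← jb_eq_jac]
      exact (h8 V hV _ hg).1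
  have h10 : (m : ℚ) * -1 ≤ 2 * r * c := by exact_mod_cast h9
  have h11 : (0 : ℚ) < m := Nat.cast_pos.2 hm
  rw [hc, show 2 * (r : ℚ) * (m * (-d - 1 / r)) = m * (2 * r * -d - 2) by field_simp] at h10
  linarith [le_of_mul_le_mul_left h10 h11]

end Crest.Agent.X262.R1
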