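import Mathlib

/-!
# Row 262, R1 (helper3): the rule of l'Hôpital at a discrete valuation

`δ` is a derivation which lowers the order at `w` like `θ • t ∂/∂t`; `nab δ u r j` is the
derivation `u ^ (-1/r) • δ` acting on `u ^ (-j/r) • K`.
* `nab_mem` : it preserves integrality at a valuation where `u` generates the `r`-th power of
  the canonical class of `δ`;
* `lhop`    : if `u ^ (-1/r) • δ` lowers the order at `w`, the `r`-th power of every unit is
  congruent to a quotient of elements of the ring `R`.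
-/

set_option autoImplicit false

noncomputable section

namespace Crest.Agent.X262.R1

open WithZero

variable {E K : Type*} [Field E] [Field K] [Algebra E K]

/-- the derivation `u ^ (-1/r) • δ` on `u ^ (-j/r) • K` -/
def nab (δ : Derivation E K K) (u : K) (r j : ℕ) (h : K) : K :=
  δ h - (j / r : K) * (δ u / u) * h

section gen

variable {Γ : Type*} [LinearOrderedCommGroupWithZero Γ] {v : Valuation K Γ}

theorem v_pow_sub_one {t : K} (h : v (t - 1) < 1) (r : ℕ) : v (t ^ r - 1) < 1 := by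
  have h1 : v t = 1 := by
    have h2 := v.map_one_add_of_lt h
    rwa [add_sub_cancel] at h2
  induction r with
  | zero => simp
  | succ r ih =>
    rw [show t ^ (r + 1) - 1 = (t ^ r - 1) * t + (t - 1) by ring]
    exact v.map_add_lt (by rwa [map_mul, h1, mul_one]) h

theorem v_nat_div [CharZero K] (hq : ∀ n : ℕ, n ≠ 0 → v n = 1) (j r : ℕ) :
    v (j / r : K) ≤ 1 := by
  rcases eq_or_ne j 0 with rfl | hj
  · simp
  rcases eq_or_ne r 0 with rfl | hr
  · simp
  rw [map_div₀, hq j hj, hq r hr, div_one]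

theorem v_int (hq : ∀ n : ℕ, n ≠ 0 → v n = 1) {n : ℤ} (hn : n ≠ 0) : v n = 1 := by
  obtain ⟨m, rfl | rfl⟩ := n.eq_nat_or_neg
  · simpa using hq m (by simpa using hn)
  · simpa using hq m (by simpa using hn)

/-- integrality is preserved where `u` generates -/
theorem nab_mem [CharZero K] (hq : ∀ n : ℕ, n ≠ 0 → v n = 1) {δ : Derivation E K K} {ρ u : K}
    {r : ℕ} (hr : 0 < r) (hρ : ρ ≠ 0) (hδ : ∀ x, v x ≤ 1 → v (δ x) ≤ v ρ) (hu : v u = v ρ ^ r)
    {j : ℕ} {h : K} (hh : v h ≤ v ρ ^ j) : v (nab δ u r j h) ≤ v ρ ^ (j + 1) := by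
  have h0 : v ρ ≠ 0 := by simpa using hρ
  have hr' : (r : K) ≠ 0 := by exact_mod_cast hr.ne'
  obtain ⟨b, rfl⟩ : ∃ b, h = ρ ^ j * b := ⟨h / ρ ^ j, by field_simp⟩
  obtain ⟨ε, rfl⟩ : ∃ ε, u = ρ ^ r * ε := ⟨u / ρ ^ r, by field_simp⟩
  rw [map_mul, map_pow] at hh hu
  have hb : v b ≤ 1 := (mul_le_iff_le_one_right (pow_pos (zero_lt_iff.2 h0) j)).1 hh
  have hε : v ε = 1 := (mul_eq_left₀ (pow_ne_zero _ h0)).1 hu
  have hε0 : ε ≠ 0 := by
    rintro rfl
    simp at hε
  have e : nab δ (ρ ^ r * ε) r j (ρ ^ j * b) = ρ ^ j * (δ b - (j / r : K) * (δ ε / ε) * b) := by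
    have p : ∀ n : ℕ, δ (ρ ^ n) = n * ρ ^ n * (δ ρ / ρ) := fun n => by
      rw [Derivation.leibniz_pow]
      rcases n with _ | n
      · simp
      · simp only [Nat.add_sub_cancel, smul_eq_mul, nsmul_eq_mul]
        field_simp
        ring
    rw [nab, Derivation.leibniz, Derivation.leibniz, p, p]
    simp only [smul_eq_mul]
    field_simp
    ring
  rw [e, map_mul, map_pow, pow_succ]
  refine mul_le_mul_right (v.map_sub_le (hδ b hb) ?_) _
  rw [map_mul, map_mul, map_div₀ v (δ ε), hε, div_one]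
  calc _ ≤ 1 * v ρ * 1 := mul_le_mul' (mul_le_mul' (v_nat_div hq j r) (hδ ε hε.le)) hb
    _ = _ := by rw [one_mul, mul_one]

end gen

variable [CharZero K] {w : Valuation K ℤᵐ⁰} {δ : Derivation E K K} {θ u : K} {r : ℕ}

theorem nab_eq (hq : ∀ n : ℕ, n ≠ 0 → w n = 1) (hr : 0 < r) (hθ : θ ≠ 0) (hu : u ≠ 0)
    (hP : ∀ x, x ≠ 0 → w (δ x / x + (log (w x) : ℤ) * θ) < w θ) (j : ℕ) {a : K} (ha : a ≠ 0) :
    ∃ ε, w ε < 1 ∧
      nab δ u r j a = a * θ * (((j * log (w u) - r * log (w a) : ℤ) : K) / r + ε) := by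
  have hr' : (r : K) ≠ 0 := by exact_mod_cast hr.ne'
  have h0 : 0 < w θ := zero_lt_iff.2 (by simpa using hθ)
  refine ⟨((δ a / a + (log (w a) : ℤ) * θ) - (j / r : K) * (δ u / u + (log (w u) : ℤ) * θ)) / θ,
    ?_, ?_⟩
  · rw [map_div₀, div_lt_one₀ h0]
    refine w.map_sub_lt (hP a ha) ?_
    rw [map_mul]
    exact (mul_le_of_le_one_left' (v_nat_div hq j r)).trans_lt (hP u hu)
  · rw [nab]
    push_cast
    field_simp
    ring

/-- **l'Hôpital** -/
theorem lhop (hq : ∀ n : ℕ, n ≠ 0 → w n = 1) (hr : 0 < r) (hθ : θ ≠ 0) (hu : u ≠ 0)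
    (hP : ∀ x, x ≠ 0 → w (δ x / x + (log (w x) : ℤ) * θ) < w θ) (hκ : w u < w θ ^ r)
    {A : ℕ → Set K} (hA : ∀ j, ∀ h ∈ A j, nab δ u r j h ∈ A (j + 1)) {R : Set K}
    (hR : ∀ j, ∀ h ∈ A j, h ^ r / u ^ j ∈ R) (hw : ∀ x ∈ R, w x ≤ 1) (n : ℕ) :
    ∀ (j : ℕ) (a a' : K), a ∈ A j → a' ∈ A j → a' ≠ 0 → w a = w a' →
      j * log (w u) - r * log (w a') ≤ n →
      ∃ p ∈ R, ∃ p' ∈ R, w p' = 1 ∧ w ((a / a') ^ r - p / p') < 1 := by
  have hu0 : w u ≠ 0 := by simpa using hu
  have hθ0 : w θ ≠ 0 := by simpa using hθ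
  have key : ∀ (j : ℕ) (a : K), a ≠ 0 →
      w (a ^ r / u ^ j) = exp (-(j * log (w u) - r * log (w a))) := fun j a ha => by
    have ha0 : w a ≠ 0 := by simpa using ha
    rw [map_div₀, map_pow, map_pow, neg_sub, exp_sub, ← nsmul_eq_mul, ← nsmul_eq_mul, exp_nsmul,
      exp_nsmul, exp_log ha0, exp_log hu0]
  have hlt : log (w u) < r * log (w θ) := by
    rw [← exp_lt_exp, ← nsmul_eq_mul, exp_nsmul, exp_log hu0, exp_log hθ0]
    exact hκ
  induction n with
  | zero =>
    intro j a a' ha ha' h0 _ hn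
    have h1 := hw _ (hR j a' ha')
    rw [key j a' h0, ← exp_zero, exp_le_exp] at h1
    refine ⟨_, hR j a ha, _, hR j a' ha', ?_, ?_⟩
    · rw [key j a' h0, ← exp_zero, exp_inj]
      omega
    · rw [div_div_div_cancel_right₀ (pow_ne_zero _ hu), div_pow, sub_self, map_zero]
      exact zero_lt_one
  | succ n ih =>
    intro j a a' ha ha' h0 hw' hn
    rcases le_or_gt (j * log (w u) - r * log (w a')) n with h | h
    · exact ih j a a' ha ha' h0 hw' h
    have ha0 : a ≠ 0 := by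
      rintro rfl
      exact h0 (by simpa using hw'.symm)
    obtain ⟨ε, hε, e⟩ := nab_eq hq hr hθ hu hP j ha0
    obtain ⟨ε', hε', e'⟩ := nab_eq hq hr hθ hu hP j h0
    rw [hw'] at e
    set c : K := ((j * log (w u) - r * log (w a') : ℤ) : K) / r with hc
    have h1 : w c = 1 := by rw [hc, map_div₀, v_int hq (by omega), hq r hr.ne', div_one]
    have h2 : w (c + ε) = 1 := by rw [w.map_add_eq_of_lt_left (by rwa [h1]), h1]
    have h3 : w (c + ε') = 1 := by rw [w.map_add_eq_of_lt_left (by rwa [h1]), h1]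
    have h4 : c + ε' ≠ 0 := by
      intro h5
      simp [h5] at h3
    have ha'0 : w a' ≠ 0 := by simpa using h0
    obtain ⟨p, hp, p', hp', h5, h6⟩ := ih (j + 1) _ _ (hA j a ha) (hA j a' ha')
      (by rw [e']; exact mul_ne_zero (mul_ne_zero h0 hθ) h4)
      (by rw [e, e', map_mul, map_mul, map_mul, map_mul, h2, h3, hw'])
      (by
        rw [e', map_mul, map_mul, h3, mul_one, log_mul ha'0 hθ0]
        push_cast at hn ⊢
        nlinarith)
    refine ⟨p, hp, p', hp', h5, ?_⟩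
    have h7 : w ((c + ε) / (c + ε') - 1) < 1 := by
      rw [div_sub_one h4, map_div₀, h3, div_one, add_sub_add_left_eq_sub]
      exact w.map_sub_lt hε hε'
    have h8 : (a / a') ^ r - p / p' = ((nab δ u r j a / nab δ u r j a') ^ r - p / p') -
        (a / a') ^ r * (((c + ε) / (c + ε')) ^ r - 1) := by
      rw [e, e', show a * θ * (c + ε) / (a' * θ * (c + ε')) = a / a' * ((c + ε) / (c + ε')) by
        field_simp, mul_pow]
      ring
    rw [h8]
    refine w.map_sub_lt h6 ?_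
    rw [map_mul, map_pow, map_div₀, hw', div_self ha'0, one_pow, one_mul]
    exact v_pow_sub_one h7 r

end Crest.Agent.X262.R1
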