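import Crest.Agent.X262.R1.Loc
import Crest.Agent.X262.Loc95.Kc

/-!
# Row 262, R1 (helper3): the canonical class of a fibration by curves on a model of rank one

`E ≤ M ≤ F`, `F / M` a curve, `δ` a derivation of `F / M`.

* `deg_ge`     : the degree of a bound of `r K_δ` on the generic fibre;
* `deg_le`     : the degree of a class below `r' K` on the generic fibre;
* `exists_exc` : on a model of rank one some place of the generic fibre is exceptional;
* `r1_deg`, `r1` : `K_δ ≥ K / 2` in degree.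
-/

set_option autoImplicit false
set_option linter.unusedSectionVars false

noncomputable section

namespace Crest.Agent.X262.R1

open Crest.Agent.X277 Crest.Agent.X277.BD Crest.Agent.X277.Pst Crest.Agent.X277.Neg
  Crest.Agent.X262.Mod Crest.Agent.X262.Loc WithZero Crest.Agent.R276.FKDefs_779
  Crest.Agent.R276.DivVal_858 Crest.Agent.R013 Module

universe u

section Jac

variable {E F : Type*} [Field E] [Field F] [Algebra E F] {n : ℕ} (Z : Jet.Fr E F (Fin n))
  (b : Basis (Fin n) F Ω[F⁄E])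

theorem jc_update (i : Fin n) (u : F) : Z.jc (Function.update Z.y i u) = Z.D i u := by
  have h : (Matrix.of fun k j => Z.D k (Function.update Z.y i u j)) =
      (1 : Matrix _ _ F).updateCol i fun k => Z.D k u := by
    ext k j
    rw [Matrix.of_apply, Matrix.updateCol_apply]
    split_ifs with h
    · rw [h, Function.update_self]
    · rw [Function.update_of_ne h, Z.dual, Matrix.one_apply]
  rw [Jet.Fr.jc, h, ← Matrix.cramer_apply, Matrix.cramer_one]
  rfl

theorem jac_basis : jac E b Z.y = b.det Z.basis := by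
  rw [jac, show ⇑Z.basis = _ from funext Z.basis_apply]

theorem jac_chain (z : Fin n → F) : jac E b z = jac E b Z.y * Z.jc z := by
  rw [Z.jc_eq_det, jac_basis]
  exact DFunLike.congr_fun (b.det.eq_smul_basis_det Z.basis) _

theorem jac_ne : jac E b Z.y ≠ 0 := by
  rw [jac_basis]
  exact (b.isUnit_det Z.basis).ne_zero

end Jac

variable {E M F : Type u} [Field E] [Field M] [Field F] [Algebra E M] [Algebra M F] [Algebra E F]
  [IsScalarTower E M F] [CharZero E] [CharZero M] [Algebra.EssFiniteType E F]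
  [Algebra.EssFiniteType M F] {H a κ : BD E F} {δ : Derivation M F F} {r r' : ℕ} {P : Pt M F}
  {π : F}

theorem isNv_pt (P : Pt M F) : IsNv ((rzP P).dn E) P.v :=
  ⟨(RR12_948.exists_v_eq P (-1)).imp fun _ h => h.2, fun _ _ => rzP_le_iff.symm⟩

theorem le_ordP_up {f : F} : P.v f ≤ exp (ordP P (up M a)) ↔
    ((rzP P).dn E).v f ≤ a.val ((rzP P).dn E) := by
  rw [le_ordP_iff, val_up]
  rfl

variable (hd : dim M F = 1)
include hd

theorem dvs_pt (P : Pt M F) : Dvs ((rzP P).dn E) := by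
  refine dvs_dn.2 (dvs_iff.2 ⟨rzP_ne_top P, ?_⟩)
  rw [show Gj.dm M F = 1 from hd]
  exact le_add_self

theorem cst_le_degP (P : Pt M F) : (cst M F : ℤ) ≤ RR8_948.degP P := by
  have h := cst_dvd [dvB hd (Finsupp.single P 1)]
  rw [bnum_dvB_single, one_mul] at h
  exact Int.le_of_dvd (by exact_mod_cast degP_pos' hd P) h

theorem ord_exc (hδ : δ ≠ 0) (h : KF H (δ.restrictScalars E) r a) (hH : IsMod H) (ha : Car H a)
    (hr : 0 < r) (hP : ¬ Prm H ((rzP P).dn E)) :
    r * (ordP P (kC δ) + 1) ≤ ordP P (up M a) := by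
  obtain ⟨π, -, hπ⟩ := RR12_948.exists_v_eq P (-1)
  have h1 := v_der_unif hd hδ hπ
  have h2 := h.exc_le' hH ha hr (dvs_pt hd P) hP (isNv_pt P) hπ
    (fun x hx => rzP_le_iff.2 (h1 ▸ v_der_le hd hδ hx)) fun h0 => exp_ne_zero (by
      rw [← h1, show δ π = 0 from h0, map_zero])
  rw [← map_pow, ← le_ordP_up, map_pow, map_div₀, Derivation.restrictScalars_apply, h1, hπ,
    ← exp_sub, ← exp_nsmul, exp_le_exp] at h2
  simpa using h2

theorem ord_ge (hδ : δ ≠ 0) (h : KF H (δ.restrictScalars E) r a) (hH : IsMod H) (ha : Car H a)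
    (hr : 0 < r) (P : Pt M F) : r * ordP P (kC δ) ≤ ordP P (up M a) := by
  by_cases hP : Prm H ((rzP P).dn E)
  · obtain ⟨π, -, hπ⟩ := RR12_948.exists_v_eq P (-1)
    have h2 := h.prm_le (π := π) hP (mem_rzP.2 (hπ ▸ (exp_le_exp.2 (by omega)).trans_eq exp_zero))
    rw [← map_pow, ← le_ordP_up, map_pow, Derivation.restrictScalars_apply, v_der_unif hd hδ hπ,
      ← exp_nsmul, exp_le_exp] at h2
    simpa using h2
  · have h1 := ord_exc hd hδ h hH ha hr hP
    rw [mul_add] at h1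
    omega

/-- the degree of a bound of the canonical class of `δ` -/
theorem deg_ge (hδ : δ ≠ 0) (h : KF H (δ.restrictScalars E) r a) (hH : IsMod H) (ha : Car H a)
    (hr : 0 < r) (hP : ¬ Prm H ((rzP P).dn E)) :
    r * (bnum [kC δ] + cst M F) ≤ bnum [up M a] := by
  have h1 : r • kC δ ≤ up M a := (le_iff_ordP hd).2 fun Q => by
    simpa using ord_ge hd hδ h hH ha hr Q
  have h2 := ordP_le_deg hd (sub_nonneg.2 h1) P
  have h3 := ord_exc hd hδ h hH ha hr hP
  have h4 := cst_le_degP hd P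
  rw [bnum_sub, bnum_nsmul, map_sub, map_nsmul, nsmul_eq_mul] at h2
  have h5 : (0 : ℤ) ≤ cst M F := Nat.cast_nonneg _
  have h6 : (0 : ℤ) ≤ r := Nat.cast_nonneg _
  nlinarith [mul_le_mul (show (r : ℤ) ≤ ordP P (up M a) - r * ordP P (kC δ) by linarith) h4 h5
    (by linarith)]

/-- adjunction on the generic fibre -/
theorem exists_adj (hδ : δ ≠ 0) {n : ℕ} (b : Basis (Fin n) F Ω[F⁄E]) : ∃ f : F, f ≠ 0 ∧
    ∀ (P : Pt M F) (z : Fin n → F), (∀ i, P.v (z i) ≤ 1) →
      P.v (jac E b z) ≤ exp (ordP P (kC δ + pr M f)) := by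
  obtain ⟨m, hm, h1⟩ := Slope.exists_codim E M F
  have h2 : n = m + 1 := by
    have h3 := finrank_eq_card_basis b
    rw [Fintype.card_fin] at h3
    rw [← h3, ← show Gj.dm M F = 1 from hd, h1]
    rfl
  subst h2
  have h3 : Algebra.trdeg E F = (m + 1 : ℕ) := by
    rw [trdeg_dm, ← h1, show Gj.dm M F = 1 from hd]
  obtain ⟨y, hy⟩ := exists_fin_basis E M hm
  let x : Fin m → F := fun i => algebraMap M F (y i)
  have key : ∀ (P : Pt M F) (π : F), P.v π = exp (-1) → ∃ Z : Jet.Fr E F (Fin (m + 1)),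
      Z.y = Fin.cons π x ∧ Z.At (Cns.kSub ((rzP P).dn E).2) := fun P π hπ => by
    refine Jet.at_of_unif h3 _ ⟨fun i => (rzP P).2 _, fun p hp => ?_⟩ ⟨?_, ?_, fun t ht => ?_⟩
    · rw [show MvPolynomial.aeval x p = algebraMap M F (MvPolynomial.aeval y p) from
        MvPolynomial.aeval_algebraMap_apply F y p]
      exact (rzP P).v_alg fun h => hp (algebraicIndependent_iff.1 hy.1 p h)
    · exact (isNv_pt (E := E) P).lt_one.1 (hπ ▸ (exp_lt_exp.2 (by omega)).trans_eq exp_zero)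
    · rintro rfl
      exact exp_ne_zero (hπ.symm.trans (map_zero _))
    · exact rzP_le_iff.2 (hπ ▸ (RR2_948.lt_one_iff _).1 ((isNv_pt (E := E) P).lt_one.2 ht))
  obtain ⟨P₀, -⟩ := exists_pt hd ∅
  obtain ⟨π₀, -, hπ₀⟩ := RR12_948.exists_v_eq P₀ (-1)
  obtain ⟨Z₀, h4, -⟩ := key P₀ π₀ hπ₀
  have h5 : δ π₀ ≠ 0 := fun h0 => exp_ne_zero (by rw [← v_der_unif hd hδ hπ₀, h0, map_zero])
  have h6 := div_ne_zero (jac_ne Z₀ b) h5
  refine ⟨_, h6, fun P z hz => ?_⟩
  obtain ⟨π, -, hπ⟩ := RR12_948.exists_v_eq P (-1)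
  obtain ⟨Z, h7, h8⟩ := key P π hπ
  have h9 : δ π₀ = δ π * Z.D 0 π₀ := by
    have h := Z.expand (δ.restrictScalars E) π₀
    rw [Fin.sum_univ_succ, h7] at h
    simpa [x] using h
  have h10 : jac E b Z₀.y = jac E b Z.y * Z.D 0 π₀ := by
    rw [← jc_update, ← jac_chain, h4, h7, Fin.update_cons_zero]
  have h11 : jac E b Z.y = δ π * (jac E b Z₀.y / δ π₀) := by
    rw [h10, ← mul_div_assoc, eq_div_iff h5, h9]
    ring
  rw [map_add, exp_add, exp_ordP_pr h6, ← v_der_unif hd hδ hπ, ← map_mul, ← h11, jac_chain Z,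
    map_mul]
  exact mul_le_of_le_one_right' (mem_rzP.1 (h8.jc_mem hz))

/-- the degree of a class below the canonical class -/
theorem deg_le (hδ : δ ≠ 0) {n : ℕ} {b : Basis (Fin n) F Ω[F⁄E]}
    (hκ : ∀ V : RZ E F, Dvs V → ∃ z, (∀ i, z i ∈ V.1) ∧ κ.val V ≤ V.v (jac E b z) ^ r') :
    bnum [up M κ] ≤ r' * bnum [kC δ] := by
  obtain ⟨f, hf, h1⟩ := exists_adj hd hδ b
  have h2 : up M κ ≤ r' • (kC δ + pr M f) := (le_iff_ordP hd).2 fun P => by
    obtain ⟨z, h2, h3⟩ := hκ _ (dvs_pt hd P)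
    rw [ordP_le_iff, val_up, val_nsmul]
    exact h3.trans (pow_le_pow_left' (le_ordP_iff.1 (h1 P z h2)) r')
  have h3 := (eff_sub_of_le h2).bnum_nonneg (l := []) (by simp)
  rw [bnum_sub, bnum_nsmul, bnum_add, bnum_pr] at h3
  linarith

theorem deg_up (c : ℤ) (f : F) : bnum [up M (c • H + pr E f)] = c * bnum [up M H] := by
  rw [map_add, map_zsmul, up_pr, bnum_add, bnum_zsmul, bnum_pr, add_zero]

/-- on a model of rank one some place of the generic fibre is exceptional -/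
theorem exists_exc (hH : IsMod H) (hM : Algebra.Transcendental E M)
    (hρ : ∀ x : BD E F, ∃ (m : ℕ) (c : ℤ) (f : F), 0 < m ∧ f ≠ 0 ∧
      EqOn H (m • x) (c • H + pr E f)) : ∃ P : Pt M F, ¬ Prm H ((rzP P).dn E) := by
  by_contra hc
  push Not at hc
  obtain ⟨t, ht⟩ := hM.transcendental
  have ht0 : t ≠ 0 := fun h => ht (h ▸ isAlgebraic_zero)
  obtain ⟨m, c, f, hm, hf, h1⟩ := hρ (mxf E ![1, algebraMap M F t])
  have h2 := (((car_self hH.free).zsmul c).add (car_pr f)).le_of_free hH ((free_mxf _).nsmul m)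
    h1.le
  have h3 : up M (c • H + pr E f) = 0 := ext' fun W => by
    rcases rz_cases hd W with rfl | ⟨P, rfl⟩
    · rw [val_top, val_top]
    obtain ⟨i, hi⟩ := exists_val_mxf (k := E) (s := ![1, algebraMap M F t]) ⟨0, by simp⟩
      ((rzP P).dn E)
    rw [val_up, ← h1 _ (hc P), val_nsmul, ← hi, val_zero]
    have h3 : ∀ i, ((rzP P).dn E).v (![1, algebraMap M F t] i) = 1 :=
      Fin.forall_fin_two.2 ⟨map_one _, (rzP P).v_alg ht0⟩
    rw [h3, one_pow]
    rfl
  have h4 := deg_up hd (H := H) c f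
  have h5 := (big_iff_deg hd).1 (hH.big.up (K := M))
  rw [h3, bnum_zero] at h4
  obtain rfl : c = 0 := by
    rcases mul_eq_zero.1 h4.symm with h | h
    exacts [h, absurd h h5.ne']
  rw [zero_smul, zero_add] at h2
  have h6 : ∀ i, IsAlgebraic E (![1, algebraMap M F t] i ^ m / f) := fun i => by
    have h6 : ![1, algebraMap M F t] i ^ m / f ∈ (0 : BD E F).Sec := fun V => by
      rw [val_zero, map_div₀, div_le_one₀ (RZ.pos hf), ← val_pr hf]
      exact (pow_mem_Sec (mem_Sec_mxf _ i) m V).trans (h2 V)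
    rw [Sec_zero] at h6
    exact mem_algebraicClosure_iff.1 h6
  have h7 := (h6 1).mul (h6 0).inv
  refine ht ((isAlgebraic_algebraMap_iff (algebraMap M F).injective).1 (IsAlgebraic.of_pow hm ?_))
  simpa [hf] using h7

/-- **R1**, degrees on the generic fibre -/
theorem r1_deg (hδ : δ ≠ 0) (hH : IsMod H) (hP : ¬ Prm H ((rzP P).dn E)) (ha : Car H a)
    (hr : 0 < r) (h : KF H (δ.restrictScalars E) r a) {n : ℕ} {b : Basis (Fin n) F Ω[F⁄E]}
    (hκ : ∀ V : RZ E F, Dvs V → ∃ z, (∀ i, z i ∈ V.1) ∧ κ.val V ≤ V.v (jac E b z) ^ r') :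
    r * bnum [up M κ] ≤ 2 * r' * bnum [up M a] := by
  have h1 := mul_le_mul_of_nonneg_left (deg_ge hd hδ h hH ha hr hP) (Nat.cast_nonneg (α := ℤ) r')
  have h2 := mul_le_mul_of_nonneg_left (deg_le hd hδ hκ) (Nat.cast_nonneg (α := ℤ) r)
  have h3 := mul_le_mul_of_nonneg_left (deg_kC_ge hd hδ) (Nat.cast_nonneg (α := ℤ) (r * r'))
  push_cast at h3
  linarith

/-- **R1**: `r K_δ ≤ c H`, `c' H ≤ r' K` imply `c' / r' ≤ 2 c / r` -/
theorem r1 (hδ : δ ≠ 0) (hH : IsMod H) (hM : Algebra.Transcendental E M)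
    (hρ : ∀ x : BD E F, ∃ (m : ℕ) (c : ℤ) (f : F), 0 < m ∧ f ≠ 0 ∧
      EqOn H (m • x) (c • H + pr E f)) {c c' : ℤ} {f f' : F} (hr : 0 < r)
    (h : KF H (δ.restrictScalars E) r (c • H + pr E f)) {n : ℕ} {b : Basis (Fin n) F Ω[F⁄E]}
    (hκ : ∀ V : RZ E F, Dvs V → ∃ z, (∀ i, z i ∈ V.1) ∧
      (c' • H + pr E f').val V ≤ V.v (jac E b z) ^ r') : r * c' ≤ 2 * r' * c := by
  obtain ⟨P, hP⟩ := exists_exc hd hH hM hρ
  have h1 := r1_deg hd hδ hH hP (((car_self hH.free).zsmul c).add (car_pr f)) hr h hκ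
  rw [deg_up hd, deg_up hd, ← mul_assoc, ← mul_assoc] at h1
  exact le_of_mul_le_mul_right h1 ((big_iff_deg hd).1 (hH.big.up (K := M)))

end Crest.Agent.X262.R1
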